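import Vale.Agent.P058.Kite.Main

open Vale.Agent.P058

namespace Vale.Agent.Results.P058.RamseyKites

/-- A Ramsey set which is not subtransitive, and the Ramsey property of all cyclic kites. -/
theorem result :
    (∃ A : Finset (EuclideanSpace ℝ (Fin 2)), A.card = 4 ∧
      (∀ r : ℕ, 2 ≤ r → ∃ D : ℕ, 1 ≤ D ∧ ∀ c : EuclideanSpace ℝ (Fin D) → Fin r,
        ∃ f : A → EuclideanSpace ℝ (Fin D),
          (∀ x y : A, dist (f x) (f y) = dist (x : EuclideanSpace ℝ (Fin 2)) y) ∧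
          ∀ x y : A, c (f x) = c (f y)) ∧
      ∀ (n : ℕ) (X : Finset (EuclideanSpace ℝ (Fin n))),
        (∀ x ∈ X, ∀ y ∈ X, ∃ φ : EuclideanSpace ℝ (Fin n) ≃ᵢ EuclideanSpace ℝ (Fin n),
          φ '' (X : Set (EuclideanSpace ℝ (Fin n))) = (X : Set (EuclideanSpace ℝ (Fin n))) ∧
            φ x = y) →
        ¬∃ f : A → EuclideanSpace ℝ (Fin n), (∀ x, f x ∈ X) ∧
          ∀ x y : A, dist (f x) (f y) = dist (x : EuclideanSpace ℝ (Fin 2)) y) ∧
    (∀ a : ℝ, |a| < 1 → ∀ r : ℕ, 2 ≤ r → ∃ D : ℕ, 1 ≤ D ∧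
      ∀ c : EuclideanSpace ℝ (Fin D) → Fin r, ∃ f : Fin 4 → EuclideanSpace ℝ (Fin D),
        (∀ i j, dist (f i) (f j) =
          Real.sqrt ((![1, -1, a, a] i - ![1, -1, a, a] j) ^ 2 +
            (![0, 0, Real.sqrt (1 - a ^ 2), -Real.sqrt (1 - a ^ 2)] i -
              ![0, 0, Real.sqrt (1 - a ^ 2), -Real.sqrt (1 - a ^ 2)] j) ^ 2)) ∧
        ∀ i j, c (f i) = c (f j)) := by
  classical
  refine ⟨?_, fun a ha r hr => ?_⟩
  · obtain ⟨a, ha, htr⟩ := Kite.exists_transcendental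
    refine ⟨Kite.kite a, ?_, (Kite.kite_ramsey a ha).2,
      fun n X hX => Kite.kite_not_subtransitive a ha htr X hX⟩
    have hinj : Function.Injective (Kite.vertex a) := by
      intro i j hij
      have h0 : Kite.vdist a i j = 0 := by
        rw [← Kite.dist_vertex, hij, dist_self]
      have hsq := Kite.vdist_sq a i j
      rw [h0] at hsq
      have hh : 0 < Real.sqrt (1 - a ^ 2) := by
        refine Real.sqrt_pos.2 ?_
        nlinarith [(abs_lt.1 ha).1, (abs_lt.1 ha).2]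
      have hx : Kite.vx a i = Kite.vx a j := by nlinarith
      have hy : Kite.vy a i = Kite.vy a j := by nlinarith
      have h1 := (abs_lt.1 ha).1
      have h2 := (abs_lt.1 ha).2
      fin_cases i <;> fin_cases j <;> simp [Kite.vx, Kite.vy] at hx hy ⊢ <;> linarith
    rw [Kite.kite, Finset.card_image_of_injective _ hinj, Finset.card_univ, Fintype.card_fin]
  · obtain ⟨D, hD, hc⟩ := (Kite.kite_ramsey a ha).2 r hr
    refine ⟨D, hD, fun c => ?_⟩
    obtain ⟨f, hf, hm⟩ := hc c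
    refine ⟨fun i => f ⟨Kite.vertex a i, Kite.vertex_mem a i⟩, fun i j => ?_, fun i j => hm _ _⟩
    rw [hf, Kite.dist_vertex]
    rfl

end Vale.Agent.Results.P058.RamseyKites
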