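import Vale.Agent.P058.Main

open Finset Vale.Agent.P058

namespace Vale.Agent.Results.P058.ThreeClassClosure

/-- Closure of the Ramsey property for transitive sets split into three parts. -/
theorem result :
    (∀ (n : ℕ) (X : Finset (Euc n)), X.Nonempty →
      ∀ (G : Subgroup (Equiv.Perm X)) (Y Z W : Finset X), IsTransitiveIsometryGroup X G →
      (∀ x, x ∈ Y ∨ x ∈ Z ∨ x ∈ W) → IsBlockFor X G W → HasPartwiseCopies X Y Z W →
      IsRamsey X) ∧
    (∀ (n : ℕ) (X : Finset (Euc n)) (a b : Euc n),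
      IsTransitiveSet X → IsRamsey ((X.erase a).erase b) → IsRamsey X) := by
  classical
  refine ⟨fun n X hne G Y Z W hG hcov hbl hcol => ?_,
    fun n X a b hX h => ramsey_of_delete_two hX a b h⟩
  let cls : X → Fin 3 := fun x => if x ∈ W then 2 else if x ∈ Y then 0 else 1
  have h2 : ∀ x, cls x = 2 ↔ x ∈ W := by
    intro x
    by_cases hW : x ∈ W
    · simp [cls, hW]
    · by_cases hY : x ∈ Y <;> simp [cls, hW, hY]
  refine ramsey_of_classes G hne cls hG.1 hG.2 ?_ ?_
  · intro g hg x hx hgx y hy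
    rw [h2] at hx hgx hy ⊢
    exact hbl g hg x hx hgx y hy
  · intro r hr
    obtain ⟨D, hD⟩ := hcol r hr
    refine ⟨D, fun c => ?_⟩
    obtain ⟨f, hf, hY, hZ, hW⟩ := hD c
    refine ⟨f, hf, fun x y hxy => ?_⟩
    by_cases hxW : x ∈ W
    · rw [(h2 x).2 hxW] at hxy
      exact hW x hxW y ((h2 y).1 hxy.symm)
    have hyW : y ∉ W := by
      intro hyW
      rw [(h2 y).2 hyW] at hxy
      exact hxW ((h2 x).1 hxy)
    by_cases hxY : x ∈ Y <;> by_cases hyY : y ∈ Y
    · exact hY x hxY y hyY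
    · simp [cls, hxW, hyW, hxY, hyY] at hxy
    · simp [cls, hxW, hyW, hxY, hyY] at hxy
    · exact hZ x ((hcov x).resolve_left hxY |>.resolve_right hxW) y
        ((hcov y).resolve_left hyY |>.resolve_right hyW)

end Vale.Agent.Results.P058.ThreeClassClosure
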